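import Vale.Agent.P277.H285.E2
import Vale.Agent.P267.H368.Cover

/-!
# P277, task E: finiteness of the de Rham cohomology of a compact manifold
-/

open scoped Manifold ContDiff Topology
open Set Filter TopologicalSpace
open Vale.Agent.P267.H175 Vale.Agent.P267.H368

noncomputable section

namespace Vale.Agent.P277.H285

variable {E : Type*} [NormedAddCommGroup E] [NormedSpace ℝ E] [FiniteDimensional ℝ E]
variable {X : Type*} [TopologicalSpace X] [ChartedSpace E X] [IsManifold 𝓘(ℝ, E) ∞ X] [T2Space X]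
    [SigmaCompactSpace X]

theorem mem_Cyc_iff {k : ℕ} {V : Opens X} {a : FV E k V} :
    dFV a = 0 ↔ ∀ x ∈ V, dF a.1 x = 0 := by
  constructor
  · intro h x hx
    rw [← dFV_apply a hx, h]
    rfl
  · intro h
    refine FV_ext fun x hx => ?_
    rw [dFV_apply a hx, h x hx]
    rfl

theorem fg_of_le_range {M N : Type*} [AddCommGroup M] [Module ℝ M] [AddCommGroup N] [Module ℝ N]
    [Module.Finite ℝ N] (f : N →ₗ[ℝ] M) (P Q : Submodule ℝ M) (h : P ≤ LinearMap.range f) :
    (P.map Q.mkQ).FG := by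
  have h1 : (LinearMap.range f).FG := by
    rw [← Submodule.map_top]
    exact Module.Finite.fg_top.map f
  exact (h1.map Q.mkQ).of_le (Submodule.map_mono h)

theorem fg_of_le {M : Type*} [AddCommGroup M] [Module ℝ M] (P Q : Submodule ℝ M) (h : P ≤ Q) :
    (P.map Q.mkQ).FG := by
  convert Submodule.fg_bot using 1
  rw [eq_bot_iff]
  rintro _ ⟨p, hp, rfl⟩
  rw [Submodule.mem_bot, Submodule.mkQ_apply, Submodule.Quotient.mk_eq_zero]
  exact h hp

theorem finC_chartConvex {V : Opens X} (hV : ChartConvex E V) (k : ℕ) :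
    (formCx E X).FinC k V := by
  obtain ⟨e, he, hVe, hconv⟩ := hV
  cases k with
  | zero =>
    refine fg_of_le_range (M := (formCx E X).A 0 V) (cstF (E := E) (V := V)) _ _ ?_
    intro a ha
    have ha' : dFV (E := E) (V := V) a = 0 := ha
    obtain ⟨r, hr⟩ := eq_const he V.isOpen hVe hconv a.2.1 (mem_Cyc_iff.1 ha')
    refine ⟨r, FV_ext fun x hx => ?_⟩
    rw [hr x hx]
    exact cstF_apply r hx
  | succ k =>
    refine fg_of_le (M := (formCx E X).A (k + 1) V) _ _ ?_
    intro a ha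
    have ha' : dFV (E := E) (V := V) a = 0 := ha
    obtain ⟨b, hb1, hb2⟩ := exists_prim he V.isOpen hVe hconv a.2.1 (mem_Cyc_iff.1 ha')
    refine ⟨mkF b hb1, FV_ext fun x hx => ?_⟩
    show (dFV (mkF b hb1)).1 x = a.1 x
    rw [dFV_apply _ hx, dF_congr (mkF_eventuallyEq b hb1 hx), hb2 x hx]

theorem finC_bot (k : ℕ) : (formCx E X).FinC k ⊥ := by
  refine fg_of_le (M := (formCx E X).A k ⊥) _ _ ?_
  intro a _
  have : a = 0 := by
    show (a : FV E k (⊥ : Opens X)) = 0
    exact FV_ext fun x hx => absurd hx (by simp)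
  rw [this]
  exact zero_mem _

theorem finC_top [CompactSpace X] (k : ℕ) : (formCx E X).FinC k ⊤ := by
  let A : E ≃L[ℝ] EuclideanSpace ℝ (Fin (Module.finrank ℝ E)) :=
    ContinuousLinearEquiv.ofFinrankEq (by simp)
  obtain ⟨G, -⟩ := exists_goodCover_manifold (𝕜 := ℝ) (n := (∞ : WithTop ℕ∞)) (X := X)
    (WithTop.coe_le_coe.2 le_top) A (fun _ : Unit => (univ : Set X)) (fun _ => isOpen_univ)
    (fun x => ⟨(), trivial⟩)
  set S : Set (Opens X) := {V | ∃ s : Finset (Fin G.n), s.Nonempty ∧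
    (V : Set X) = ⋂ j ∈ s, G.U j} with hS
  have h1 : ∀ V ∈ S, ∀ W ∈ S, V ⊓ W ∈ S := by
    rintro V ⟨s, hs, hV⟩ W ⟨t, ht, hW⟩
    classical
    refine ⟨s ∪ t, hs.mono Finset.subset_union_left, ?_⟩
    rw [Opens.coe_inf, hV, hW]
    ext x
    simp only [mem_inter_iff, mem_iInter, Finset.mem_union, or_imp, forall_and]
  have h2 : ∀ V ∈ S, ∀ k, (formCx E X).FinC k V := by
    rintro V ⟨s, ⟨i, hi⟩, hV⟩ k
    rcases (V : Set X).eq_empty_or_nonempty with he | hne
    · have : V = ⊥ := Opens.ext he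
      rw [this]
      exact finC_bot k
    · rw [hV] at hne
      obtain ⟨h3, h4, -⟩ := G.inter_convex hi hne
      refine finC_chartConvex ⟨G.e i, G.e_mem i, ?_, ?_⟩ k
      · rw [hV]
        exact (iInter₂_subset i hi).trans (h3 i hi)
      · rw [hV]
        exact h4
  let U : Fin G.n → Opens X := fun i => ⟨G.U i, G.isOpen_U i⟩
  have h3 := Cx.FinC.of_class (C := formCx E X) h1 h2 finC_bot (List.ofFn U).length
    (List.ofFn U) rfl (fun V hV => by
      rw [List.mem_ofFn] at hV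
      obtain ⟨i, rfl⟩ := hV
      exact ⟨{i}, by simp, by simp [U]⟩) k
  have h4 : (List.ofFn U).foldr (· ⊔ ·) ⊥ = (⊤ : Opens X) := by
    rw [eq_top_iff]
    intro x _
    obtain ⟨i, hi⟩ := G.exists_mem_U x
    have h5 : ∀ l : List (Opens X), U i ∈ l → x ∈ l.foldr (· ⊔ ·) ⊥ := by
      intro l hl
      induction l with
      | nil => simp at hl
      | cons V l ihl =>
        rcases List.mem_cons.1 hl with h | h
        · rw [List.foldr_cons]
          left
          rw [← h]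
          exact hi
        · rw [List.foldr_cons]
          right
          exact ihl h
    exact h5 _ (by rw [List.mem_ofFn]; exact ⟨i, rfl⟩)
  rwa [h4] at h3

/-- **Finiteness of de Rham cohomology.** -/
theorem deRham_finite [CompactSpace X] (k : ℕ) :
    ∃ (b : ℕ) (a : Fin b → X → E [⋀^Fin (k + 1)]→L[ℝ] ℝ),
      (∀ i y, SmAt (a i) y ∧ dF (a i) y = 0) ∧
      ∀ c : X → E [⋀^Fin (k + 1)]→L[ℝ] ℝ, (∀ y, SmAt c y ∧ dF c y = 0) →
        ∃ (t : Fin b → ℝ) (β : X → E [⋀^Fin k]→L[ℝ] ℝ), (∀ y, SmAt β y) ∧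
          ∀ y, c y = ∑ i, t i • a i y + dF β y := by
  obtain ⟨n, a, ha, h⟩ := (finC_top (E := E) (X := X) (k + 1)).exists_rep
  change Fin n → FV E (k + 1) (⊤ : Opens X) at a
  have ha' : ∀ i, dFV (E := E) (V := (⊤ : Opens X)) (a i) = 0 := ha
  refine ⟨n, fun i => (a i).1, fun i y => ⟨(a i).2.1 y trivial, mem_Cyc_iff.1 (ha' i) y trivial⟩,
    ?_⟩
  intro c hc
  let c' : FV E (k + 1) (⊤ : Opens X) := ⟨c, fun x _ => (hc x).1, fun x hx => absurd trivial hx⟩
  have hc' : dFV c' = 0 := mem_Cyc_iff.2 fun x _ => (hc x).2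
  obtain ⟨t, β, hβ⟩ := h c' hc'
  change FV E k (⊤ : Opens X) at β
  have h5 : (∑ i, t i • a i) + dFV (E := E) (V := (⊤ : Opens X)) β = c' := hβ
  refine ⟨t, β.1, fun y => β.2.1 y trivial, fun y => ?_⟩
  have h6 : (∑ i, t i • a i).1 y + (dFV (E := E) (V := (⊤ : Opens X)) β).1 y = c y :=
    congrArg (fun b : FV E (k + 1) (⊤ : Opens X) => b.1 y) h5
  rw [← h6, dFV_apply β (by trivial : y ∈ (⊤ : Opens X))]
  congr 1
  rw [Submodule.coe_sum, Finset.sum_apply]
  rfl

end Vale.Agent.P277.H285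

namespace Vale.Agent.P277

theorem stE : StE := by
  intro E _ _ _ Y _ _ _ _ _ k
  exact H285.deRham_finite k

end Vale.Agent.P277
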