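import Vale.Agent.P277.Stmts
import Vale.Agent.P267.H175.RGood

/-!
# P277, task E: finiteness of de Rham cohomology, the Mayer-Vietoris step
-/

open scoped Manifold ContDiff Topology
open Set Filter TopologicalSpace
open Vale.Agent.P267.H175

noncomputable section

namespace Vale.Agent.P277.H285

/-! ### linear algebra -/

theorem fg_of_map {M N : Type*} [AddCommGroup M] [Module ℝ M] [AddCommGroup N] [Module ℝ N]
    (f : M →ₗ[ℝ] N) (P Q : Submodule ℝ M) (Q' : Submodule ℝ N) (hQ : Q ≤ Q'.comap f)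
    (h1 : ((P.map f).map Q'.mkQ).FG) (h2 : ((P ⊓ Q'.comap f).map Q.mkQ).FG) :
    (P.map Q.mkQ).FG := by
  refine Submodule.fg_of_fg_map_of_fg_inf_ker (Q.mapQ Q' f hQ) ?_ ?_
  · rw [← Submodule.map_comp, Submodule.mapQ_mkQ, Submodule.map_comp]
    exact h1
  · refine h2.of_le ?_
    rintro _ ⟨⟨p, hp, rfl⟩, hk⟩
    refine ⟨p, ⟨hp, ?_⟩, rfl⟩
    have h3 : Q'.mkQ (f p) = 0 := hk
    rw [Submodule.mkQ_apply, Submodule.Quotient.mk_eq_zero] at h3
    exact h3

theorem fg_map_of_mapQ {M N : Type*} [AddCommGroup M] [Module ℝ M] [AddCommGroup N] [Module ℝ N]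
    (δ : M →ₗ[ℝ] N) (P Q : Submodule ℝ M) (Q' : Submodule ℝ N) (hQ : Q ≤ Q'.comap δ)
    (h1 : (P.map Q.mkQ).FG) : ((P.map δ).map Q'.mkQ).FG := by
  have h2 := h1.map (Q.mapQ Q' δ hQ)
  rwa [← Submodule.map_comp, Submodule.mapQ_mkQ, Submodule.map_comp] at h2

/-! ### abstract presheaves of complexes with a Mayer-Vietoris map -/

/-- A presheaf of complexes with connecting maps. -/
structure Cx (X : Type*) [TopologicalSpace X] where
  A : ℕ → Opens X → Type*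
  [grp : ∀ k V, AddCommGroup (A k V)]
  [mod : ∀ k V, Module ℝ (A k V)]
  res : ∀ {k : ℕ} {V W : Opens X}, V ≤ W → A k W →ₗ[ℝ] A k V
  d : ∀ {k : ℕ} {V : Opens X}, A k V →ₗ[ℝ] A (k + 1) V
  res_d : ∀ {k : ℕ} {V W : Opens X} (h : V ≤ W) (a : A k W), res h (d a) = d (res h a)
  sep : ∀ {k : ℕ} {U V : Opens X} (c : A k (U ⊔ V)), res le_sup_left c = 0 →
    res le_sup_right c = 0 → c = 0
  del : ∀ {k : ℕ} (U V : Opens X), A k (U ⊓ V) →ₗ[ℝ] A (k + 1) (U ⊔ V)
  del_d : ∀ {k : ℕ} {U V : Opens X} (ξ : A k (U ⊓ V)), del U V (d ξ) = - d (del U V ξ)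
  glue : ∀ {k : ℕ} {U V : Opens X} (c : A (k + 1) (U ⊔ V)) (α : A k U) (β : A k V),
    d α = res le_sup_left c → d β = res le_sup_right c →
    ∃ γ : A k (U ⊓ V), d γ = 0 ∧ ∃ w : A k (U ⊔ V), d w + del U V γ = c

attribute [instance] Cx.grp Cx.mod

namespace Cx

variable {X : Type*} [TopologicalSpace X] (C : Cx X)

/-- exact forms -/
def Bdy : (k : ℕ) → (V : Opens X) → Submodule ℝ (C.A k V)
  | 0, _ => ⊥
  | k + 1, V => LinearMap.range (C.d (k := k) (V := V))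

/-- closed forms -/
def Cyc (k : ℕ) (V : Opens X) : Submodule ℝ (C.A k V) := LinearMap.ker (C.d (k := k) (V := V))

/-- `H^k(V)` has finite dimension. -/
def FinC (k : ℕ) (V : Opens X) : Prop := ((C.Cyc k V).map (C.Bdy k V).mkQ).FG

variable {C}

theorem resF_Cyc {k : ℕ} {V W : Opens X} (h : V ≤ W) :
    (C.Cyc k W).map (C.res h) ≤ C.Cyc k V := by
  rintro _ ⟨a, ha, rfl⟩
  have ha' : C.d a = 0 := ha
  show C.d (C.res h a) = 0
  rw [← C.res_d, ha', map_zero]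

theorem Bdy_le_comap_res {k : ℕ} {V W : Opens X} (h : V ≤ W) :
    C.Bdy k W ≤ (C.Bdy k V).comap (C.res h) := by
  cases k with
  | zero => exact bot_le
  | succ k =>
    rintro _ ⟨a, rfl⟩
    exact ⟨C.res h a, (C.res_d h a).symm⟩

theorem Bdy_le_comap_del {k : ℕ} {U V : Opens X} :
    C.Bdy k (U ⊓ V) ≤ (C.Bdy (k + 1) (U ⊔ V)).comap (C.del U V) := by
  cases k with
  | zero => exact bot_le
  | succ k =>
    rintro _ ⟨a, rfl⟩
    refine ⟨-(C.del U V a), ?_⟩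
    rw [map_neg, C.del_d]

/-- **Mayer-Vietoris** in degree `k + 1`. -/
theorem FinC.sup_succ {k : ℕ} {U V : Opens X}
    (hU : C.FinC (k + 1) U) (hV : C.FinC (k + 1) V) (hUV : C.FinC k (U ⊓ V)) :
    C.FinC (k + 1) (U ⊔ V) := by
  refine fg_of_map (C.res le_sup_left) _ _ (C.Bdy (k + 1) U) (Bdy_le_comap_res le_sup_left)
    (hU.of_le (Submodule.map_mono (resF_Cyc le_sup_left))) ?_
  refine fg_of_map (C.res le_sup_right) _ _ (C.Bdy (k + 1) V) (Bdy_le_comap_res le_sup_right)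
    (hV.of_le (Submodule.map_mono ((Submodule.map_mono inf_le_left).trans
      (resF_Cyc le_sup_right)))) ?_
  have h1 := fg_map_of_mapQ (C.del U V) (C.Cyc k (U ⊓ V)) (C.Bdy k (U ⊓ V))
    (C.Bdy (k + 1) (U ⊔ V)) Bdy_le_comap_del hUV
  refine h1.of_le ?_
  rintro _ ⟨c, ⟨⟨hc, ⟨α, hα⟩⟩, ⟨β, hβ⟩⟩, rfl⟩
  obtain ⟨γ, hγ1, w, hγ2⟩ := C.glue c α β hα hβ
  refine ⟨C.del U V γ, ⟨γ, hγ1, rfl⟩, ?_⟩
  rw [Submodule.mkQ_apply, Submodule.mkQ_apply, Submodule.Quotient.eq]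
  refine ⟨-w, ?_⟩
  rw [map_neg, ← hγ2]
  abel

theorem FinC.sup_zero {U V : Opens X} (hU : C.FinC 0 U) (hV : C.FinC 0 V) :
    C.FinC 0 (U ⊔ V) := by
  refine fg_of_map (C.res le_sup_left) _ _ (C.Bdy 0 U) (Bdy_le_comap_res le_sup_left)
    (hU.of_le (Submodule.map_mono (resF_Cyc le_sup_left))) ?_
  refine fg_of_map (C.res le_sup_right) _ _ (C.Bdy 0 V) (Bdy_le_comap_res le_sup_right)
    (hV.of_le (Submodule.map_mono ((Submodule.map_mono inf_le_left).trans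
      (resF_Cyc le_sup_right)))) ?_
  convert Submodule.fg_bot using 1
  rw [eq_bot_iff]
  rintro _ ⟨c, ⟨⟨hc, hα⟩, hβ⟩, rfl⟩
  rw [C.sep c hα hβ, map_zero]
  exact zero_mem _

/-- finite unions of members of a class of open sets which is closed under intersections -/
theorem FinC.of_class {S : Set (Opens X)} (hS : ∀ V ∈ S, ∀ W ∈ S, V ⊓ W ∈ S)
    (hfin : ∀ V ∈ S, ∀ k, C.FinC k V) (hbot : ∀ k, C.FinC k ⊥) :
    ∀ (n : ℕ) (l : List (Opens X)), l.length = n → (∀ V ∈ l, V ∈ S) →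
      ∀ k, C.FinC k (l.foldr (· ⊔ ·) ⊥) := by
  intro n
  induction n with
  | zero =>
    intro l hl _ k
    rw [List.length_eq_zero_iff] at hl
    subst hl
    exact hbot k
  | succ n ih =>
    intro l hl hlS k
    cases l with
    | nil => simp at hl
    | cons V l =>
      have hl' : l.length = n := by simpa using hl
      have hV : V ∈ S := hlS V (by simp)
      have hlS' : ∀ W ∈ l, W ∈ S := fun W hW => hlS W (by simp [hW])
      have h1 : V ⊓ l.foldr (· ⊔ ·) ⊥ = (l.map (V ⊓ ·)).foldr (· ⊔ ·) ⊥ := by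
        clear hl hlS hl' hlS'
        induction l with
        | nil => simp
        | cons W l ihl => simp only [List.foldr_cons, List.map_cons, inf_sup_left, ihl]
      have h2 : ∀ k, C.FinC k (V ⊓ l.foldr (· ⊔ ·) ⊥) := by
        intro k
        rw [h1]
        refine ih _ (by simpa using hl') ?_ k
        intro W hW
        rw [List.mem_map] at hW
        obtain ⟨W', hW', rfl⟩ := hW
        exact hS V hV W' (hlS' W' hW')
      show C.FinC k (V ⊔ l.foldr (· ⊔ ·) ⊥)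
      cases k with
      | zero => exact FinC.sup_zero (hfin V hV 0) (ih l hl' hlS' 0)
      | succ k => exact FinC.sup_succ (hfin V hV (k + 1)) (ih l hl' hlS' (k + 1)) (h2 k)

theorem FinC.exists_rep {k : ℕ} {V : Opens X} (h : C.FinC (k + 1) V) :
    ∃ (n : ℕ) (a : Fin n → C.A (k + 1) V), (∀ i, C.d (a i) = 0) ∧
      ∀ c : C.A (k + 1) V, C.d c = 0 → ∃ (t : Fin n → ℝ) (β : C.A k V),
        ∑ i, t i • a i + C.d β = c := by
  obtain ⟨n, s, hs⟩ := Submodule.fg_iff_exists_fin_generating_family.1 h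
  have h1 : ∀ i, ∃ a : C.A (k + 1) V, C.d a = 0 ∧ (C.Bdy (k + 1) V).mkQ a = s i := by
    intro i
    have : s i ∈ Submodule.span ℝ (range s) := Submodule.subset_span (mem_range_self i)
    rw [hs] at this
    obtain ⟨a, ha, hai⟩ := this
    exact ⟨a, ha, hai⟩
  choose a ha1 ha2 using h1
  refine ⟨n, a, ha1, fun c hc => ?_⟩
  have h2 : (C.Bdy (k + 1) V).mkQ c ∈ Submodule.span ℝ (range s) := by
    rw [hs]
    exact ⟨c, hc, rfl⟩
  rw [Submodule.mem_span_range_iff_exists_fun] at h2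
  obtain ⟨t, ht⟩ := h2
  have h3 : (C.Bdy (k + 1) V).mkQ c = (C.Bdy (k + 1) V).mkQ (∑ i, t i • a i) := by
    rw [map_sum, ← ht]
    refine Finset.sum_congr rfl fun i _ => ?_
    rw [map_smul, ← ha2 i]
  rw [Submodule.mkQ_apply, Submodule.mkQ_apply, Submodule.Quotient.eq] at h3
  obtain ⟨β, hβ⟩ := h3
  exact ⟨t, β, by rw [hβ]; abel⟩

end Cx

end Vale.Agent.P277.H285
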