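import Vale.Agent.P277.H285.E1

/-!
# P277, task E: the complex of differential forms has Mayer-Vietoris maps
-/

open scoped Manifold ContDiff Topology
open Set Filter TopologicalSpace
open Vale.Agent.P267.H175

noncomputable section

namespace Vale.Agent.P277.H285

variable {E : Type*} [NormedAddCommGroup E] [NormedSpace ℝ E]
variable {X : Type*} [TopologicalSpace X] [ChartedSpace E X]

omit [TopologicalSpace X] [ChartedSpace E X] in
theorem neg1 {k : ℕ} (a : E [⋀^Fin k]→L[ℝ] ℝ) : (-1 : ℝ) • a = -a := by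
  ext v
  simp

/-! ### a cut-off function for two open sets -/

/-- `φ` is smooth on `U ∪ V`, zero near `U \ V` and one near `V \ U`. -/
structure Cut (E : Type*) [NormedAddCommGroup E] [NormedSpace ℝ E] [ChartedSpace E X]
    (U V : Opens X) (φ : X → ℝ) : Prop where
  sm : ∀ x ∈ U ⊔ V, ContMDiffAt 𝓘(ℝ, E) 𝓘(ℝ, ℝ) ∞ φ x
  zero : ∀ x ∈ U, x ∉ V → ∀ᶠ y in 𝓝 x, φ y = 0
  one : ∀ x ∈ V, x ∉ U → ∀ᶠ y in 𝓝 x, φ y = 1

theorem exists_cut [FiniteDimensional ℝ E] [IsManifold 𝓘(ℝ, E) ∞ X] [T2Space X]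
    [SigmaCompactSpace X] (U V : Opens X) : ∃ φ : X → ℝ, Cut E U V φ := by
  obtain ⟨u, hu1, hu2, hu3⟩ := IsOpen.exists_contMDiff_support_eq (n := (⊤ : ℕ∞)) 𝓘(ℝ, E) U.isOpen
  obtain ⟨v, hv1, hv2, hv3⟩ := IsOpen.exists_contMDiff_support_eq (n := (⊤ : ℕ∞)) 𝓘(ℝ, E) V.isOpen
  have hpos : ∀ x ∈ U ⊔ V, u x + v x ≠ 0 := by
    intro x hx
    rcases hx with hx | hx
    · have h1 : u x ≠ 0 := by
        have : x ∈ Function.support u := by rw [hu1]; exact hx
        exact this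
      have h2 := lt_of_le_of_ne (hu3 x) (Ne.symm h1)
      have := hv3 x
      positivity
    · have h1 : v x ≠ 0 := by
        have : x ∈ Function.support v := by rw [hv1]; exact hx
        exact this
      have h2 := lt_of_le_of_ne (hv3 x) (Ne.symm h1)
      have := hu3 x
      positivity
  set q : X → ℝ := fun x => v x / (u x + v x) with hq
  have hqs : ∀ x ∈ U ⊔ V, ContMDiffAt 𝓘(ℝ, E) 𝓘(ℝ, ℝ) ∞ q x := by
    intro x hx
    exact (hv2 x).div₀ ((hu2 x).add (hv2 x)) (hpos x hx)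
  have hstep : ContDiff ℝ ∞ (fun t : ℝ => Real.smoothTransition (3 * t - 1)) :=
    Real.smoothTransition.contDiff.comp ((contDiff_const.mul contDiff_id).sub contDiff_const)
  refine ⟨fun x => Real.smoothTransition (3 * q x - 1), ?_, ?_, ?_⟩
  · intro x hx
    exact hstep.contMDiff.contMDiffAt.comp x (hqs x hx)
  · intro x hx hx'
    have h0 : q x = 0 := by
      have : v x = 0 := by
        by_contra h
        exact hx' (by
          have h5 : x ∈ Function.support v := h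
          rw [hv1] at h5
          exact h5)
      simp [hq, this]
    have hc : ContinuousAt q x := (hqs x (Or.inl hx)).continuousAt
    have h1 : ∀ᶠ y in 𝓝 x, q y < 1 / 3 := hc.eventually_lt_const (by rw [h0]; norm_num)
    filter_upwards [h1] with y hy
    exact Real.smoothTransition.zero_of_nonpos (by linarith)
  · intro x hx hx'
    have h0 : q x = 1 := by
      have : u x = 0 := by
        by_contra h
        exact hx' (by
          have h5 : x ∈ Function.support u := h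
          rw [hu1] at h5
          exact h5)
      have h6 := hpos x (Or.inr hx)
      rw [this, zero_add] at h6
      simp [hq, this, h6]
    have hc : ContinuousAt q x := (hqs x (Or.inr hx)).continuousAt
    have h1 : ∀ᶠ y in 𝓝 x, 2 / 3 < q y := hc.eventually_const_lt (by rw [h0]; norm_num)
    filter_upwards [h1] with y hy
    exact Real.smoothTransition.one_of_one_le (by linarith)

/-! ### the connecting map -/

variable [IsManifold 𝓘(ℝ, E) ∞ X] [FiniteDimensional ℝ E]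

/-- the function underlying the connecting map -/
def delFun {k : ℕ} (U V : Opens X) (φ : X → ℝ) (γ : X → E [⋀^Fin k]→L[ℝ] ℝ) :
    X → E [⋀^Fin (k + 1)]→L[ℝ] ℝ :=
  ((U ⊓ V : Opens X) : Set X).indicator
    (fun x => dF (fun y => φ y • γ y) x - φ x • dF γ x)

omit [IsManifold 𝓘(ℝ, E) ∞ X] [FiniteDimensional ℝ E] in
theorem delFun_of_mem {k : ℕ} {U V : Opens X} {φ : X → ℝ} {γ : X → E [⋀^Fin k]→L[ℝ] ℝ} {x : X}
    (hx : x ∈ U ⊓ V) : delFun U V φ γ x = dF (fun y => φ y • γ y) x - φ x • dF γ x :=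
  indicator_of_mem hx _

omit [IsManifold 𝓘(ℝ, E) ∞ X] [FiniteDimensional ℝ E] in
theorem delFun_of_notMem {k : ℕ} {U V : Opens X} {φ : X → ℝ} {γ : X → E [⋀^Fin k]→L[ℝ] ℝ} {x : X}
    (hx : x ∉ U ⊓ V) : delFun U V φ γ x = 0 :=
  indicator_of_notMem hx _

omit [IsManifold 𝓘(ℝ, E) ∞ X] [FiniteDimensional ℝ E] in
theorem dF_zero' {k : ℕ} (x : X) : dF (fun _ : X => (0 : E [⋀^Fin k]→L[ℝ] ℝ)) x = 0 := by
  have h := dF_smul (0 : ℝ) (fun _ : X => (0 : E [⋀^Fin k]→L[ℝ] ℝ)) x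
  rw [zero_smul, zero_smul] at h
  exact h

omit [IsManifold 𝓘(ℝ, E) ∞ X] [FiniteDimensional ℝ E] in
/-- near a point of `U ∪ V` outside `U ∩ V` the form vanishes -/
theorem delFun_eventually {k : ℕ} {U V : Opens X} {φ : X → ℝ} (hφ : Cut E U V φ)
    (γ : X → E [⋀^Fin k]→L[ℝ] ℝ) {x : X} (hx : x ∈ U ⊔ V) (hx' : x ∉ U ⊓ V) :
    delFun U V φ γ =ᶠ[𝓝 x] fun _ => 0 := by
  by_cases hU : x ∈ U
  · have hV : x ∉ V := fun h => hx' ⟨hU, h⟩
    filter_upwards [(hφ.zero x hU hV).eventually_nhds] with y hy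
    by_cases hy2 : y ∈ U ⊓ V
    · rw [delFun_of_mem hy2]
      have h1 : (fun z => φ z • γ z) =ᶠ[𝓝 y] fun _ => 0 := by
        filter_upwards [hy] with z hz
        rw [hz, zero_smul]
      rw [dF_congr h1, dF_zero', hy.self_of_nhds, zero_smul, sub_zero]
    · exact delFun_of_notMem hy2
  · have hV : x ∈ V := by
      rcases hx with h | h
      · exact absurd h hU
      · exact h
    filter_upwards [(hφ.one x hV hU).eventually_nhds] with y hy
    by_cases hy2 : y ∈ U ⊓ V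
    · rw [delFun_of_mem hy2]
      have h1 : (fun z => φ z • γ z) =ᶠ[𝓝 y] γ := by
        filter_upwards [hy] with z hz
        rw [hz, one_smul]
      rw [dF_congr h1, hy.self_of_nhds, one_smul, sub_self]
    · exact delFun_of_notMem hy2

omit [IsManifold 𝓘(ℝ, E) ∞ X] [FiniteDimensional ℝ E] in
theorem Cut.smul {k : ℕ} {U V : Opens X} {φ : X → ℝ} (hφ : Cut E U V φ)
    {γ : X → E [⋀^Fin k]→L[ℝ] ℝ} {x : X} (hx : x ∈ U ⊓ V) (hγ : SmAt γ x) :
    SmAt (fun y => φ y • γ y) x :=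
  smAt_fsmul (hφ.sm x (Or.inl hx.1)) hγ

theorem smAt_delFun {k : ℕ} {U V : Opens X} {φ : X → ℝ} (hφ : Cut E U V φ)
    {γ : X → E [⋀^Fin k]→L[ℝ] ℝ} (hγ : ∀ x ∈ U ⊓ V, SmAt γ x) {x : X} (hx : x ∈ U ⊔ V) :
    SmAt (delFun U V φ γ) x := by
  by_cases hx' : x ∈ U ⊓ V
  · have h1 : SmAt (dF (fun y => φ y • γ y)) x :=
      smAt_dF (V := ((U ⊓ V : Opens X) : Set X)) (U ⊓ V).isOpen
        (fun y hy => hφ.smul hy (hγ y hy)) hx'
    have h2 : SmAt (fun y => (-1 : ℝ) • (φ y • dF γ y)) x :=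
      (smAt_fsmul (hφ.sm x hx) (smAt_dF (V := ((U ⊓ V : Opens X) : Set X)) (U ⊓ V).isOpen
        hγ hx')).smul (-1)
    refine (h1.add h2).congr ?_
    filter_upwards [(U ⊓ V).isOpen.mem_nhds hx'] with y hy
    rw [delFun_of_mem hy, Pi.add_apply, neg1, sub_eq_add_neg]
  · exact (smAt_zero x).congr (delFun_eventually hφ γ hx hx')

/-- the connecting map -/
def del {k : ℕ} {U V : Opens X} {φ : X → ℝ} (hφ : Cut E U V φ) :
    FV E k (U ⊓ V) →ₗ[ℝ] FV E (k + 1) (U ⊔ V) where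
  toFun γ := ⟨delFun U V φ γ.1, fun _ hx => smAt_delFun hφ γ.2.1 hx, fun _ hx =>
    delFun_of_notMem fun h => hx (Or.inl h.1)⟩
  map_add' a b := by
    apply Subtype.ext
    funext x
    show delFun U V φ (a.1 + b.1) x = delFun U V φ a.1 x + delFun U V φ b.1 x
    by_cases hx : x ∈ U ⊓ V
    · rw [delFun_of_mem hx, delFun_of_mem hx, delFun_of_mem hx]
      have h1 : (fun y => φ y • (a.1 + b.1) y) = (fun y => φ y • a.1 y) + fun y => φ y • b.1 y := by
        funext y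
        simp
      rw [h1, dF_add (hφ.smul hx (a.2.1 x hx)) (hφ.smul hx (b.2.1 x hx)),
        dF_add (a.2.1 x hx) (b.2.1 x hx), smul_add]
      abel
    · rw [delFun_of_notMem hx, delFun_of_notMem hx, delFun_of_notMem hx, add_zero]
  map_smul' c a := by
    apply Subtype.ext
    funext x
    show delFun U V φ (c • a.1) x = c • delFun U V φ a.1 x
    by_cases hx : x ∈ U ⊓ V
    · rw [delFun_of_mem hx, delFun_of_mem hx]
      have h1 : (fun y => φ y • (c • a.1) y) = c • (fun y => φ y • a.1 y) := by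
        funext y
        rw [Pi.smul_apply, Pi.smul_apply, smul_comm]
      rw [h1, dF_smul, dF_smul, smul_comm (φ x) c, smul_sub]
    · rw [delFun_of_notMem hx, delFun_of_notMem hx, smul_zero]

theorem del_apply {k : ℕ} {U V : Opens X} {φ : X → ℝ} (hφ : Cut E U V φ) (γ : FV E k (U ⊓ V)) :
    (del hφ γ).1 = delFun U V φ γ.1 := rfl

/-- `δ d = - d δ` -/
theorem del_dFV {k : ℕ} {U V : Opens X} {φ : X → ℝ} (hφ : Cut E U V φ) (ξ : FV E k (U ⊓ V)) :
    del hφ (dFV ξ) = - dFV (del hφ ξ) := by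
  refine FV_ext fun x hx => ?_
  rw [del_apply]
  show _ = - (dFV (del hφ ξ)).1 x
  rw [dFV_apply _ hx, del_apply]
  by_cases hx' : x ∈ U ⊓ V
  · rw [delFun_of_mem hx']
    have h1 : (fun y => φ y • (dFV ξ).1 y) =ᶠ[𝓝 x] fun y => φ y • dF ξ.1 y := by
      filter_upwards [(U ⊓ V).isOpen.mem_nhds hx'] with y hy
      rw [dFV_apply ξ hy]
    have h2 : delFun U V φ ξ.1 =ᶠ[𝓝 x]
        dF (fun y => φ y • ξ.1 y) + (-1 : ℝ) • fun y => φ y • dF ξ.1 y := by
      filter_upwards [(U ⊓ V).isOpen.mem_nhds hx'] with y hy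
      rw [delFun_of_mem hy, Pi.add_apply, Pi.smul_apply, neg1, sub_eq_add_neg]
    have h3 : SmAt (dF (fun y => φ y • ξ.1 y)) x :=
      smAt_dF (V := ((U ⊓ V : Opens X) : Set X)) (U ⊓ V).isOpen
        (fun y hy => hφ.smul hy (ξ.2.1 y hy)) hx'
    have h4 : SmAt (fun y => φ y • dF ξ.1 y) x :=
      smAt_fsmul (hφ.sm x hx) (smAt_dF (V := ((U ⊓ V : Opens X) : Set X)) (U ⊓ V).isOpen
        ξ.2.1 hx')
    rw [dF_congr h1, dF_congr h2, dF_add h3 (h4.smul (-1)), dF_smul,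
      dF_dF (V := ((U ⊓ V : Opens X) : Set X)) (U ⊓ V).isOpen
        (fun y hy => hφ.smul hy (ξ.2.1 y hy)) hx',
      dF_congr (dFV_eventuallyEq ξ hx'),
      dF_dF (V := ((U ⊓ V : Opens X) : Set X)) (U ⊓ V).isOpen ξ.2.1 hx', smul_zero, sub_zero,
      zero_add, neg1, neg_neg]
  · rw [delFun_of_notMem hx', dF_congr (delFun_eventually hφ ξ.1 hx hx'), dF_zero', neg_zero]

/-- the gluing step -/
theorem glue {k : ℕ} {U V : Opens X} {φ : X → ℝ} (hφ : Cut E U V φ) (c : FV E (k + 1) (U ⊔ V))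
    (α : FV E k U) (β : FV E k V) (hα : dFV α = resF le_sup_left c)
    (hβ : dFV β = resF le_sup_right c) :
    ∃ γ : FV E k (U ⊓ V), dFV γ = 0 ∧ ∃ w : FV E k (U ⊔ V), dFV w + del hφ γ = c := by
  set γ : FV E k (U ⊓ V) := resF inf_le_left α - resF inf_le_right β with hγ
  have hγm : ∀ x ∈ U ⊓ V, γ.1 x = α.1 x - β.1 x := by
    intro x hx
    show (resF (E := E) (V := U ⊓ V) inf_le_left α).1 x -
      (resF (E := E) (V := U ⊓ V) inf_le_right β).1 x = _
    rw [resF_apply_of_mem _ _ hx, resF_apply_of_mem _ _ hx]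
  have hγe : ∀ x ∈ U ⊓ V, γ.1 =ᶠ[𝓝 x] α.1 + (-1 : ℝ) • β.1 := by
    intro x hx
    filter_upwards [(U ⊓ V).isOpen.mem_nhds hx] with y hy
    rw [hγm y hy, Pi.add_apply, Pi.smul_apply, neg1, sub_eq_add_neg]
  have hdα : ∀ x ∈ U, dF α.1 x = c.1 x := by
    intro x hx
    rw [← dFV_apply α hx, hα, resF_apply_of_mem _ _ hx]
  have hdβ : ∀ x ∈ V, dF β.1 x = c.1 x := by
    intro x hx
    rw [← dFV_apply β hx, hβ, resF_apply_of_mem _ _ hx]
  have hdγ : ∀ x ∈ U ⊓ V, dF γ.1 x = 0 := by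
    intro x hx
    rw [dF_congr (hγe x hx), dF_add (α.2.1 x hx.1) ((β.2.1 x hx.2).smul (-1)), dF_smul,
      hdα x hx.1, hdβ x hx.2, neg1, add_neg_cancel]
  refine ⟨γ, FV_ext fun x hx => by rw [dFV_apply γ hx, hdγ x hx]; rfl, ?_⟩
  -- the glued form
  classical
  set w : X → E [⋀^Fin k]→L[ℝ] ℝ := fun x => if x ∈ U then α.1 x - φ x • γ.1 x else β.1 x with hw
  have hγ0 : ∀ x, x ∉ U ⊓ V → γ.1 x = 0 := γ.2.2
  have hwU : ∀ x ∈ U ⊓ V, w =ᶠ[𝓝 x] α.1 + (-1 : ℝ) • fun y => φ y • γ.1 y := by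
    intro x hx
    filter_upwards [U.isOpen.mem_nhds hx.1] with y hy
    rw [hw, Pi.add_apply, Pi.smul_apply, neg1, ← sub_eq_add_neg]
    exact if_pos hy
  have hwU' : ∀ x ∈ U, x ∉ V → w =ᶠ[𝓝 x] α.1 := by
    intro x hx hx'
    filter_upwards [U.isOpen.mem_nhds hx, hφ.zero x hx hx'] with y hy hy'
    have : w y = α.1 y - φ y • γ.1 y := if_pos hy
    rw [this, hy', zero_smul, sub_zero]
  have hwV' : ∀ x ∈ V, x ∉ U → w =ᶠ[𝓝 x] β.1 := by
    intro x hx hx'
    filter_upwards [V.isOpen.mem_nhds hx, hφ.one x hx hx'] with y hy hy'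
    by_cases hyU : y ∈ U
    · have : w y = α.1 y - φ y • γ.1 y := if_pos hyU
      rw [this, hy', one_smul, hγm y ⟨hyU, hy⟩, sub_sub_cancel]
    · exact if_neg hyU
  have hsm : ∀ x ∈ U ⊔ V, SmAt w x := by
    intro x hx
    by_cases hU : x ∈ U
    · by_cases hV : x ∈ V
      · exact ((α.2.1 x hU).add ((hφ.smul ⟨hU, hV⟩ (γ.2.1 x ⟨hU, hV⟩)).smul (-1))).congr
          (hwU x ⟨hU, hV⟩)
      · exact (α.2.1 x hU).congr (hwU' x hU hV)
    · have hV : x ∈ V := by
        rcases hx with h | h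
        · exact absurd h hU
        · exact h
      exact (β.2.1 x hV).congr (hwV' x hV hU)
  refine ⟨mkF w hsm, FV_ext fun x hx => ?_⟩
  have hgoal : dF w x + delFun U V φ γ.1 x = c.1 x → (dFV (mkF w hsm) + del hφ γ).1 x = c.1 x := by
    intro h
    show (dFV (mkF w hsm)).1 x + delFun U V φ γ.1 x = c.1 x
    rw [dFV_apply _ hx, dF_congr (mkF_eventuallyEq w hsm hx), h]
  refine hgoal (eq_sub_iff_add_eq.1 ?_)
  by_cases hU : x ∈ U
  · by_cases hV : x ∈ V
    · have hUV : x ∈ U ⊓ V := ⟨hU, hV⟩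
      rw [dF_congr (hwU x hUV), dF_add (α.2.1 x hU) ((hφ.smul hUV (γ.2.1 x hUV)).smul (-1)),
        dF_smul, delFun_of_mem hUV, hdα x hU, hdγ x hUV, smul_zero, sub_zero, neg1,
        sub_eq_add_neg]
    · rw [dF_congr (hwU' x hU hV), hdα x hU, delFun_of_notMem fun h => hV h.2, sub_zero]
  · have hV : x ∈ V := by
      rcases hx with h | h
      · exact absurd h hU
      · exact h
    rw [dF_congr (hwV' x hV hU), hdβ x hV, delFun_of_notMem fun h => hU h.1, sub_zero]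

/-- the connecting map for the chosen cut-off -/
def delC [T2Space X] [SigmaCompactSpace X] {k : ℕ} (U V : Opens X) :
    FV E k (U ⊓ V) →ₗ[ℝ] FV E (k + 1) (U ⊔ V) :=
  del (exists_cut (E := E) U V).choose_spec

theorem delC_dFV [T2Space X] [SigmaCompactSpace X] {k : ℕ} {U V : Opens X}
    (ξ : FV E k (U ⊓ V)) : delC U V (dFV ξ) = - dFV (delC U V ξ) :=
  del_dFV _ ξ

theorem glueC [T2Space X] [SigmaCompactSpace X] {k : ℕ} {U V : Opens X}
    (c : FV E (k + 1) (U ⊔ V)) (α : FV E k U) (β : FV E k V) (hα : dFV α = resF le_sup_left c)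
    (hβ : dFV β = resF le_sup_right c) :
    ∃ γ : FV E k (U ⊓ V), dFV γ = 0 ∧ ∃ w : FV E k (U ⊔ V), dFV w + delC U V γ = c :=
  glue _ c α β hα hβ

/-- The complex of differential forms. -/
def formCx (E : Type*) [NormedAddCommGroup E] [NormedSpace ℝ E] [FiniteDimensional ℝ E]
    (X : Type*) [TopologicalSpace X] [ChartedSpace E X] [IsManifold 𝓘(ℝ, E) ∞ X] [T2Space X]
    [SigmaCompactSpace X] : Cx X where
  A k V := FV E k V
  res h := resF h
  d := dFV
  res_d h a := FV_ext fun x hx => by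
    rw [resF_apply_of_mem h _ hx, dFV_apply _ (h hx), dFV_apply _ hx]
    exact (dF_congr (resF_eventuallyEq h a hx)).symm
  sep {k U V} c h1 h2 := by
    refine FV_ext fun x hx => ?_
    rcases hx with hx | hx
    · rw [← resF_apply_of_mem (E := E) (le_sup_left : U ≤ U ⊔ V) c hx, h1]
      rfl
    · rw [← resF_apply_of_mem (E := E) (le_sup_right : V ≤ U ⊔ V) c hx, h2]
      rfl
  del U V := delC U V
  del_d ξ := delC_dFV ξ
  glue c α β h1 h2 := glueC c α β h1 h2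

end Vale.Agent.P277.H285
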